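import Vale.Agent.Lib.P052.helper21.ChkDefs

namespace Vale.Agent.Lib.P052.H21

theorem kA0 : rowsOK ((rowsT.drop 0).take 52) = true := by decide +kernel

theorem kA1 : rowsOK ((rowsT.drop 52).take 52) = true := by decide +kernel

theorem kA2 : rowsOK ((rowsT.drop 104).take 52) = true := by decide +kernel

theorem kA3 : rowsOK ((rowsT.drop 156).take 52) = true := by decide +kernel

theorem kA4 : rowsOK ((rowsT.drop 208).take 52) = true := by decide +kernel

theorem kA5 : rowsOK ((rowsT.drop 260).take 52) = true := by decide +kernel

theorem kA6 : rowsOK ((rowsT.drop 312).take 52) = true := by decide +kernel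

theorem kA7 : rowsOK ((rowsT.drop 364).take 52) = true := by decide +kernel

theorem kC : Nat.beq (rowSum rowsT) (Nat.mul 1248 repU) = true := by decide +kernel

theorem kD : Nat.beq (trSum rowsT 64) 7296 = true := by decide +kernel

theorem kU : Nat.add (Nat.mul repU 1048575) 1 = Nat.pow BX 416 := by decide +kernel

theorem kP : P321 = Nat.pow 2 321 := by decide +kernel

theorem kM : Nat.add M321 1 = P321 := by decide +kernel

theorem kL : rowsT.length = 416 := by decide +kernel

end Vale.Agent.Lib.P052.H21
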