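import Mathlib
import Vale.Agent.Lib.P052.helper21.ChkA

/-!
From the kernel-checked boolean facts about the packed data to statements about the
entries of the matrix and about the graph on 321 vertices.
-/

namespace Vale.Agent.Lib.P052.H21


theorem band_eq_true (a b : Bool) : band a b = true ↔ a = true ∧ b = true := by
  cases a <;> cases b <;> simp [band]

theorem BX_eq : BX = 2 ^ 20 := by norm_num [BX]

theorem BX_pos : 0 < BX := by norm_num [BX]

/-- The value of a stored row: the label in the lowest 64 bits is dropped. -/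
def val (r : ℕ) : ℕ := r / 2 ^ 64

/-- The digit number `j` of `x` in base 2^20. -/
def dgt (x j : ℕ) : ℕ := x / BX ^ j % BX

theorem shift_val (r : ℕ) : Nat.shiftRight r 64 = val r := by
  show r >>> 64 = r / 2 ^ 64
  rw [Nat.shiftRight_eq_div_pow]

theorem shift_digit (r j : ℕ) : Nat.mod (Nat.shiftRight r (64 + 20 * j)) BX = dgt (val r) j := by
  show (r >>> (64 + 20 * j)) % BX = val r / BX ^ j % BX
  rw [Nat.shiftRight_eq_div_pow, val, Nat.div_div_eq_div_mul, BX_eq, ← pow_mul, ← pow_add]

theorem digOK_zero (r sh : ℕ) : digOK r 0 sh = Nat.beq (Nat.shiftRight r sh) 0 := rfl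

theorem digOK_succ (r m sh : ℕ) : digOK r (m + 1) sh =
    band (Nat.ble (Nat.mod (Nat.shiftRight r sh) BX) 31) (digOK r m (Nat.add sh 20)) := rfl

theorem digOK_spec (r : ℕ) : ∀ m sh, digOK r m sh = true →
    (∀ t, t < m → Nat.mod (Nat.shiftRight r (sh + 20 * t)) BX ≤ 31) ∧
      Nat.shiftRight r (sh + 20 * m) = 0 := by
  intro m
  induction m with
  | zero =>
    intro sh h
    rw [digOK_zero] at h
    exact ⟨by intro t ht; omega, by simpa using Nat.eq_of_beq_eq_true h⟩
  | succ m ih =>
    intro sh h
    rw [digOK_succ, band_eq_true] at h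
    obtain ⟨h1, h2⟩ := h
    obtain ⟨h3, h4⟩ := ih _ h2
    refine ⟨?_, ?_⟩
    · intro t ht
      rcases t with _ | t
      · simpa using Nat.le_of_ble_eq_true h1
      · have h5 := h3 t (by omega)
        have e : Nat.add sh 20 + 20 * t = sh + 20 * (t + 1) := by
          show sh + 20 + 20 * t = _
          ring
        rwa [e] at h5
    · have e : Nat.add sh 20 + 20 * m = sh + 20 * (m + 1) := by
        show sh + 20 + 20 * m = _
        ring
      rwa [e] at h4

theorem digit_expand (B : ℕ) (hB : 0 < B) : ∀ m x, x < B ^ m →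
    x = ∑ j ∈ Finset.range m, (x / B ^ j % B) * B ^ j := by
  intro m
  induction m with
  | zero =>
    intro x hx
    simp at hx
    simp [hx]
  | succ m ih =>
    intro x hx
    have hx' : x / B < B ^ m := by
      rw [Nat.div_lt_iff_lt_mul hB]
      rw [pow_succ] at hx
      exact hx
    rw [Finset.sum_range_succ']
    have h1 := ih (x / B) hx'
    have e : ∀ j, x / (B ^ j * B) = x / B / B ^ j := by
      intro j
      rw [Nat.div_div_eq_div_mul, mul_comm]
    simp only [pow_succ, pow_zero, Nat.div_one, mul_one, e]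
    have h2 : ∑ j ∈ Finset.range m, (x / B / B ^ j % B) * (B ^ j * B) = (x / B) * B := by
      conv_rhs => rw [h1]
      rw [Finset.sum_mul]
      apply Finset.sum_congr rfl
      intros
      ring
    rw [h2]
    exact (Nat.div_add_mod' x B).symm

theorem digit_unique (B : ℕ) (hB : 0 < B) : ∀ (m : ℕ) (a b : ℕ → ℕ),
    (∀ j, j < m → a j < B) → (∀ j, j < m → b j < B) →
    (∑ j ∈ Finset.range m, a j * B ^ j = ∑ j ∈ Finset.range m, b j * B ^ j) →
    ∀ j, j < m → a j = b j := by
  intro m
  induction m with
  | zero => intros; omega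
  | succ m ih =>
    intro a b ha hb h j hj
    rw [Finset.sum_range_succ', Finset.sum_range_succ'] at h
    simp only [pow_zero, mul_one, pow_succ] at h
    have ea : ∑ j ∈ Finset.range m, a (j + 1) * (B ^ j * B) =
        (∑ j ∈ Finset.range m, a (j + 1) * B ^ j) * B := by
      rw [Finset.sum_mul]
      apply Finset.sum_congr rfl
      intros
      ring
    have eb : ∑ j ∈ Finset.range m, b (j + 1) * (B ^ j * B) =
        (∑ j ∈ Finset.range m, b (j + 1) * B ^ j) * B := by
      rw [Finset.sum_mul]
      apply Finset.sum_congr rfl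
      intros
      ring
    rw [ea, eb] at h
    have h0 : a 0 = b 0 := by
      have h' := congrArg (fun z => z % B) h
      simp only [Nat.mul_add_mod_self_right] at h'
      rwa [Nat.mod_eq_of_lt (ha 0 (by omega)), Nat.mod_eq_of_lt (hb 0 (by omega))] at h'
    rw [h0] at h
    have h1 : ∑ j ∈ Finset.range m, a (j + 1) * B ^ j = ∑ j ∈ Finset.range m, b (j + 1) * B ^ j :=
      Nat.eq_of_mul_eq_mul_right hB (Nat.add_right_cancel h)
    rcases j with _ | j
    · exact h0
    · exact ih (fun j => a (j + 1)) (fun j => b (j + 1)) (fun j hj => ha _ (by omega))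
        (fun j hj => hb _ (by omega)) h1 j (by omega)

theorem listRec_sum (f : ℕ → ℕ) (l : List ℕ) :
    List.rec (motive := fun _ => ℕ) 0 (fun r _ ih => Nat.add (f r) ih) l =
      ∑ k ∈ Finset.range l.length, f (l.getD k 0) := by
  induction l with
  | nil => simp
  | cons r t ih =>
    show Nat.add (f r) (List.rec (motive := fun _ => ℕ) 0 (fun r _ ih => Nat.add (f r) ih) t) = _
    rw [ih, List.length_cons, Finset.sum_range_succ']
    simp [Nat.add_comm]

theorem colSum_eq (sh : ℕ) (l : List ℕ) : colSum sh l =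
    ∑ k ∈ Finset.range l.length,
      Nat.mod (Nat.shiftRight (l.getD k 0) sh) BX * Nat.shiftRight (l.getD k 0) 64 :=
  listRec_sum (fun r => Nat.mul (Nat.mod (Nat.shiftRight r sh) BX) (Nat.shiftRight r 64)) l

theorem rowSum_eq (l : List ℕ) : rowSum l =
    ∑ k ∈ Finset.range l.length, Nat.shiftRight (l.getD k 0) 64 :=
  listRec_sum (fun r => Nat.shiftRight r 64) l

theorem colsOK_spec (cU : ℕ) : ∀ (l : List ℕ) (sh : ℕ), colsOK cU l sh = true →
    ∀ t, t < l.length →
      colSum (sh + 20 * t) rowsT = 96 * Nat.shiftRight (l.getD t 0) 64 + cU := by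
  intro l
  induction l with
  | nil =>
    intro sh _ t ht
    simp at ht
  | cons r tl ih =>
    intro sh h t ht
    have h' : band (Nat.beq (colSum sh rowsT) (Nat.add (Nat.mul 96 (Nat.shiftRight r 64)) cU))
        (colsOK cU tl (Nat.add sh 20)) = true := h
    rw [band_eq_true] at h'
    rcases t with _ | t
    · simpa using Nat.eq_of_beq_eq_true h'.1
    · have h5 := ih _ h'.2 t (by simpa using ht)
      have e : Nat.add sh 20 + 20 * t = sh + 20 * (t + 1) := by
        show sh + 20 + 20 * t = _
        ring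
      rw [e] at h5
      simpa using h5

theorem trSum_spec : ∀ (l : List ℕ) (sh : ℕ), trSum l sh =
    ∑ k ∈ Finset.range l.length, Nat.mod (Nat.shiftRight (l.getD k 0) (sh + 20 * k)) BX := by
  intro l
  induction l with
  | nil => intro sh; rfl
  | cons r tl ih =>
    intro sh
    show Nat.add (Nat.mod (Nat.shiftRight r sh) BX) (trSum tl (Nat.add sh 20)) = _
    rw [ih, List.length_cons, Finset.sum_range_succ']
    have e : ∀ k, Nat.add sh 20 + 20 * k = sh + 20 * (k + 1) := by
      intro k
      show sh + 20 + 20 * k = _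
      ring
    simp only [e]
    simp [Nat.add_comm]


theorem natBeq_iff (a b : ℕ) : Nat.beq a b = true ↔ a = b :=
  ⟨Nat.eq_of_beq_eq_true, fun h => h ▸ Nat.beq_refl a⟩



theorem boolRec_nat (x y : ℕ) (c : Bool) :
    Bool.rec (motive := fun _ => ℕ) x y c = if c = true then y else x := by
  cases c <;> rfl

theorem allBits_zero (g : ℕ → ℕ → Bool) (C : ℕ) : allBits g 0 C = Nat.beq C 0 := rfl

theorem allBits_succ (g : ℕ → ℕ → Bool) (f C : ℕ) : allBits g (f + 1) C =
    Bool.rec (motive := fun _ => Bool)
      (band (g (Nat.gcd C P321) (Nat.xor C (Nat.gcd C P321)))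
        (allBits g f (Nat.xor C (Nat.gcd C P321))))
      true (Nat.beq C 0) := rfl

theorem allBits_spec (g : ℕ → ℕ → Bool) : ∀ f C, allBits g f C = true →
    ∀ a, C.testBit a = true →
      ∃ D, g (2 ^ a) D = true ∧ ∀ t, a < t → C.testBit t = true → D.testBit t = true := by
  intro f
  induction f with
  | zero =>
    intro C h a ha
    rw [allBits_zero] at h
    have h0 : C = 0 := Nat.eq_of_beq_eq_true h
    subst h0
    simp at ha
  | succ f ih =>
    intro C h a ha
    rw [allBits_succ] at h
    by_cases hC : C = 0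
    · subst hC
      simp at ha
    · have hb : Nat.beq C 0 = false := by
        cases hbe : Nat.beq C 0 with
        | true => exact absurd (Nat.eq_of_beq_eq_true hbe) hC
        | false => rfl
      rw [hb] at h
      have h' : band (g (Nat.gcd C P321) (Nat.xor C (Nat.gcd C P321)))
          (allBits g f (Nat.xor C (Nat.gcd C P321))) = true := h
      rw [band_eq_true] at h'
      obtain ⟨hg, hrest⟩ := h'
      have hdvd : Nat.gcd C P321 ∣ 2 ^ 321 := by
        have h1 : Nat.gcd C P321 ∣ P321 := Nat.gcd_dvd_right C P321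
        rw [kP] at h1
        exact h1
      obtain ⟨p, _, hL⟩ := (Nat.dvd_prime_pow Nat.prime_two).mp hdvd
      have hdC : 2 ^ p ∣ C := hL ▸ Nat.gcd_dvd_left C P321
      have hpa : p ≤ a := by
        by_contra hlt
        obtain ⟨m, rfl⟩ := hdC
        rw [Nat.testBit_two_pow_mul] at ha
        simp at ha
        omega
      rw [hL] at hg hrest
      have hxor : ∀ t, t ≠ p → (Nat.xor C (2 ^ p)).testBit t = C.testBit t := by
        intro t ht
        show (C ^^^ 2 ^ p).testBit t = _
        rw [Nat.testBit_xor, Nat.testBit_two_pow]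
        simp [ht.symm]
      rcases Nat.eq_or_lt_of_le hpa with rfl | hlt
      · exact ⟨_, hg, fun t ht hCt => by rw [hxor t (by omega)]; exact hCt⟩
      · obtain ⟨D, hD1, hD2⟩ := ih _ hrest a (by rw [hxor a (by omega)]; exact ha)
        exact ⟨D, hD1, fun t ht hCt => hD2 t ht (by rw [hxor t (by omega)]; exact hCt)⟩

/-- Adjacency of the vertices `a` and `b`, read from the adjacency row of `a`. -/
noncomputable def adjB (a b : ℕ) : Bool := (nbH (2 ^ a)).testBit b

/-- There is no clique of `k` vertices, listed increasingly, all of them in the bit set `C`. -/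
def NoCl (k C : ℕ) : Prop :=
  ∀ l : List ℕ, l.length = k → l.Pairwise (fun a b => a < b ∧ adjB a b = true) →
    (∀ a ∈ l, C.testBit a = true) → False

theorem noCl_one (C : ℕ) (h : chk1 C = true) : NoCl 1 C := by
  intro l hl _ hC
  have h0 : C = 0 := Nat.eq_of_beq_eq_true h
  subst h0
  match l, hl with
  | [a], _ => simpa using hC a (by simp)

theorem noCl_step (chk : ℕ → Bool) (k : ℕ) (hk : ∀ C, chk C = true → NoCl k C) (C : ℕ)
    (h : allBits (fun L D => chk (Nat.land D (nbH L))) 321 C = true) : NoCl (k + 1) C := by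
  intro l hl hp hC
  match l, hl with
  | a :: l', hl' =>
    rw [List.pairwise_cons] at hp
    obtain ⟨D, hD1, hD2⟩ := allBits_spec _ 321 C h a (hC a (by simp))
    refine hk _ hD1 l' (by simpa using hl') hp.2 ?_
    intro b hb
    have hab := hp.1 b hb
    show (D &&& nbH (2 ^ a)).testBit b = true
    rw [Nat.testBit_and, hD2 b hab.1 (hC b (by simp [hb]))]
    simpa [adjB] using hab.2

theorem noCl_two (C : ℕ) (h : chk2 C = true) : NoCl 2 C := noCl_step chk1 1 noCl_one C h
theorem noCl_three (C : ℕ) (h : chk3 C = true) : NoCl 3 C := noCl_step chk2 2 noCl_two C h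
theorem noCl_four (C : ℕ) (h : chk4 C = true) : NoCl 4 C := noCl_step chk3 3 noCl_three C h
theorem noCl_five (C : ℕ) (h : chk5 C = true) : NoCl 5 C := noCl_step chk4 4 noCl_four C h

theorem topOK_succ (f a : ℕ) : topOK (f + 1) a =
    band (chk5 (Nat.land (Nat.sub P321 (Nat.pow 2 (Nat.succ a))) (nbH (Nat.pow 2 a))))
      (topOK f (Nat.succ a)) := rfl

theorem topOK_spec : ∀ f a, topOK f a = true → ∀ t, t < f →
    chk5 (Nat.land (P321 - 2 ^ (a + t + 1)) (nbH (2 ^ (a + t)))) = true := by
  intro f
  induction f with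
  | zero => intro a _ t ht; omega
  | succ f ih =>
    intro a h t ht
    rw [topOK_succ, band_eq_true] at h
    rcases t with _ | t
    · exact h.1
    · have h5 := ih (Nat.succ a) h.2 t (by omega)
      have e : Nat.succ a + t = a + (t + 1) := by omega
      rw [e] at h5
      exact h5

theorem rowsOK_spec : ∀ l : List ℕ, rowsOK l = true →
    ∀ t, t < l.length → digOK (l.getD t 0) 416 64 = true := by
  intro l
  induction l with
  | nil =>
    intro _ t ht
    simp at ht
  | cons r tl ih =>
    intro h t ht
    have h' : band (digOK r 416 64) (rowsOK tl) = true := h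
    rw [band_eq_true] at h'
    rcases t with _ | t
    · exact h'.1
    · have h5 := ih h'.2 t (by simpa using ht)
      simpa using h5

theorem getD_drop (l : List ℕ) (a t : ℕ) : (l.drop a).getD t 0 = l.getD (a + t) 0 := by
  simp [List.getD_eq_getElem?_getD, List.getElem?_drop]

theorem getD_drop_take (l : List ℕ) (a n t : ℕ) (ht : t < n) :
    ((l.drop a).take n).getD t 0 = l.getD (a + t) 0 := by
  simp [List.getD_eq_getElem?_getD, ht, List.getElem?_drop]

theorem length_drop_take (l : List ℕ) (a n : ℕ) (h : a + n ≤ l.length) :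
    ((l.drop a).take n).length = n := by
  rw [List.length_take, List.length_drop]
  omega

theorem rowsOK_chunk (l : List ℕ) (a n : ℕ) (h : rowsOK ((l.drop a).take n) = true) (t : ℕ)
    (ht : t < n) (hl : a + n ≤ l.length) : digOK (l.getD (a + t) 0) 416 64 = true := by
  have h1 := rowsOK_spec _ h t (by rw [length_drop_take l a n hl]; exact ht)
  rw [getD_drop_take l a n t ht] at h1
  exact h1

theorem colsOK_chunk (cU : ℕ) (l : List ℕ) (a n sh : ℕ)
    (h : colsOK cU ((l.drop a).take n) sh = true) (t : ℕ) (ht : t < n) (hl : a + n ≤ l.length) :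
    colSum (sh + 20 * t) rowsT = 96 * Nat.shiftRight (l.getD (a + t) 0) 64 + cU := by
  have h1 := colsOK_spec cU _ sh h t (by rw [length_drop_take l a n hl]; exact ht)
  rw [getD_drop_take l a n t ht] at h1
  exact h1

theorem blkOK_succ (r m a dv f j : ℕ) : blkOK r m a dv (f + 1) j = band
    (Nat.beq (Nat.mod (Nat.shiftRight r (Nat.add 64 (Nat.mul 20 j))) BX)
      (Bool.rec (motive := fun _ => Nat)
        (Nat.add 2 (Nat.mul 4 (Nat.mod (Nat.shiftRight m j) 2))) dv (Nat.beq j a)))
    (blkOK r m a dv f (Nat.succ j)) := rfl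

theorem blkOK_spec (r m a dv : ℕ) : ∀ f j, blkOK r m a dv f j = true → ∀ t, t < f →
    dgt (val r) (j + t) =
      if j + t = a then dv else 2 + 4 * (Nat.shiftRight m (j + t) % 2) := by
  intro f
  induction f with
  | zero => intro j _ t ht; omega
  | succ f ih =>
    intro j h t ht
    rw [blkOK_succ, band_eq_true] at h
    rcases t with _ | t
    · have h1 := Nat.eq_of_beq_eq_true h.1
      rw [show Nat.add 64 (Nat.mul 20 j) = 64 + 20 * j from rfl, shift_digit, boolRec_nat] at h1
      simp only [natBeq_iff] at h1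
      rw [Nat.add_zero, h1]
      rfl
    · have h5 := ih (Nat.succ j) h.2 t (by omega)
      have e : Nat.succ j + t = j + (t + 1) := by omega
      rw [e] at h5
      exact h5

theorem blkAll_succ_cons (f r : ℕ) (tl : List ℕ) (a : ℕ) : blkAll (f + 1) (r :: tl) a =
    band (blkOK r (Nat.land (nbH (Nat.pow 2 a)) M321) a
        (Nat.sub 18 (Nat.mul 2 (Nat.div a 320))) 321 0)
      (blkAll f tl (Nat.succ a)) := rfl

theorem blkAll_succ_nil (f a : ℕ) : blkAll (f + 1) [] a = false := rfl

theorem blkAll_spec : ∀ f l a, blkAll f l a = true → ∀ t, t < f →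
    blkOK (l.getD t 0) (Nat.land (nbH (2 ^ (a + t))) M321) (a + t)
      (18 - 2 * ((a + t) / 320)) 321 0 = true := by
  intro f
  induction f with
  | zero => intro l a _ t ht; omega
  | succ f ih =>
    intro l a h t ht
    cases l with
    | nil =>
      rw [blkAll_succ_nil] at h
      exact absurd h (by simp)
    | cons r tl =>
      rw [blkAll_succ_cons, band_eq_true] at h
      rcases t with _ | t
      · exact h.1
      · have h5 := ih tl (Nat.succ a) h.2 t (by omega)
        have e : Nat.succ a + t = a + (t + 1) := by omega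
        rw [e] at h5
        simpa using h5

theorem blkAll_chunk (l : List ℕ) (n a : ℕ) (h : blkAll n (l.drop a) a = true) (t : ℕ)
    (ht : t < n) :
    blkOK (l.getD (a + t) 0) (Nat.land (nbH (2 ^ (a + t))) M321) (a + t)
      (18 - 2 * ((a + t) / 320)) 321 0 = true := by
  have h1 := blkAll_spec n (l.drop a) a h t ht
  rw [getD_drop] at h1
  exact h1

theorem geom_aux (Y m : ℕ) : (∑ j ∈ Finset.range m, (Y + 1) ^ j) * Y + 1 = (Y + 1) ^ m :=
  geom_sum_mul_add Y m

theorem repU_eq : ∑ j ∈ Finset.range 416, BX ^ j = repU := by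
  have h1 := geom_aux 1048575 416
  have hB : (1048575 + 1 : ℕ) = BX := rfl
  rw [hB] at h1
  have h2 : Nat.add (Nat.mul repU 1048575) 1 = Nat.pow BX 416 := kU
  have h4 : (∑ j ∈ Finset.range 416, BX ^ j) * 1048575 + 1 = repU * 1048575 + 1 :=
    h1.trans h2.symm
  exact Nat.eq_of_mul_eq_mul_right (by norm_num) (Nat.add_right_cancel h4)


end Vale.Agent.Lib.P052.H21
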