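import Vale.Agent.Lib.P052.helper21.ChkDefs
import Vale.Agent.Lib.P052.helper21.ChkA

namespace Vale.Agent.Lib.P052.H21

theorem kB0 : colsOK (Nat.mul 3456 repU) ((rowsT.drop 0).take 52) 64 = true := by
  decide +kernel

theorem kB1 : colsOK (Nat.mul 3456 repU) ((rowsT.drop 52).take 52) 1104 = true := by
  decide +kernel

theorem kB2 : colsOK (Nat.mul 3456 repU) ((rowsT.drop 104).take 52) 2144 = true := by
  decide +kernel

theorem kB3 : colsOK (Nat.mul 3456 repU) ((rowsT.drop 156).take 52) 3184 = true := by
  decide +kernel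

theorem kB4 : colsOK (Nat.mul 3456 repU) ((rowsT.drop 208).take 52) 4224 = true := by
  decide +kernel

theorem kB5 : colsOK (Nat.mul 3456 repU) ((rowsT.drop 260).take 52) 5264 = true := by
  decide +kernel

theorem kB6 : colsOK (Nat.mul 3456 repU) ((rowsT.drop 312).take 52) 6304 = true := by
  decide +kernel

theorem kB7 : colsOK (Nat.mul 3456 repU) ((rowsT.drop 364).take 52) 7344 = true := by
  decide +kernel

end Vale.Agent.Lib.P052.H21
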