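import Vale.Agent.Lib.P052.helper21.Data

/-!
Checking functions for the packed data, written with bare recursors so that the
kernel can evaluate them quickly.  Nothing here depends on Mathlib.
-/

namespace Vale.Agent.Lib.P052.H21

/-- The base of the packed rows, 2^20. -/
def BX : Nat := 1048576

/-- 2^321. -/
def P321 : Nat := 4271974071841820164790043412339104229205409044713305539894083215644439451561281100045924173873152

/-- 2^321 - 1: the bit set of all 321 vertices. -/
def M321 : Nat := 4271974071841820164790043412339104229205409044713305539894083215644439451561281100045924173873151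

/-- Conjunction through the recursor of Bool. -/
noncomputable def band (a b : Bool) : Bool := Bool.rec (motive := fun _ => Bool) false b a

/-- The number whose 416 digits in base 2^20 are all 1. -/
noncomputable def repU : Nat := Nat.div (Nat.sub (Nat.pow BX 416) 1) (Nat.sub BX 1)

/-- `digOK r m sh`: the `m` base-2^20 digits of `r` starting at bit `sh` are all at most 31,
and no bit of `r` lies above them. -/
noncomputable def digOK (r : Nat) (m : Nat) : Nat → Bool :=
  Nat.rec (motive := fun _ => Nat → Bool) (fun sh => Nat.beq (Nat.shiftRight r sh) 0)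
    (fun _ ih sh => band (Nat.ble (Nat.mod (Nat.shiftRight r sh) BX) 31) (ih (Nat.add sh 20))) m

/-- Every row passes `digOK` with 416 digits starting at bit 64. -/
noncomputable def rowsOK : List Nat → Bool :=
  List.rec (motive := fun _ => Bool) true (fun r _ ih => band (digOK r 416 64) ih)

/-- Sum over the rows `r` of (digit of `r` at bit `sh`) times (`r` shifted right by 64). -/
noncomputable def colSum (sh : Nat) : List Nat → Nat :=
  List.rec (motive := fun _ => Nat) 0
    (fun r _ ih => Nat.add (Nat.mul (Nat.mod (Nat.shiftRight r sh) BX) (Nat.shiftRight r 64)) ih)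

/-- For the i-th row `r` of the list (with `sh = 64 + 20 i` at that row):
`colSum sh rowsT = 96 * (r >>> 64) + cU`. -/
noncomputable def colsOK (cU : Nat) : List Nat → Nat → Bool :=
  List.rec (motive := fun _ => Nat → Bool) (fun _ => true)
    (fun r _ ih sh => band
      (Nat.beq (colSum sh rowsT) (Nat.add (Nat.mul 96 (Nat.shiftRight r 64)) cU))
      (ih (Nat.add sh 20)))

/-- Sum of the rows (each shifted right by 64). -/
noncomputable def rowSum : List Nat → Nat :=
  List.rec (motive := fun _ => Nat) 0 (fun r _ ih => Nat.add (Nat.shiftRight r 64) ih)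

/-- Sum of the diagonal digits: the i-th row contributes its digit at bit `64 + 20 i`. -/
noncomputable def trSum : List Nat → Nat → Nat :=
  List.rec (motive := fun _ => Nat → Nat) (fun _ => 0)
    (fun r _ ih sh => Nat.add (Nat.mod (Nat.shiftRight r sh) BX) (ih (Nat.add sh 20)))

/-- The adjacency row of the vertex whose one-hot code is `L`. -/
noncomputable def nbH (L : Nat) : Nat := Nat.shiftRight allH (Nat.mul 321 (Nat.mod L 347))

/-- `blkOK r m a dv f j`: for the `f` digits of the row `r` from digit `j` on, digit `j` is `dv`
when `j = a`, and otherwise it is `2 + 4 * (bit j of m)`. -/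
noncomputable def blkOK (r m a dv : Nat) (f : Nat) : Nat → Bool :=
  Nat.rec (motive := fun _ => Nat → Bool) (fun _ => true)
    (fun _ ih j => band
      (Nat.beq (Nat.mod (Nat.shiftRight r (Nat.add 64 (Nat.mul 20 j))) BX)
        (Bool.rec (motive := fun _ => Nat)
          (Nat.add 2 (Nat.mul 4 (Nat.mod (Nat.shiftRight m j) 2))) dv (Nat.beq j a)))
      (ih (Nat.succ j))) f

/-- `blkAll f l a`: the first `f` rows of `l` (numbered from `a`) pass `blkOK` on their first
321 digits, against the adjacency row of their vertex (cut to its lowest 321 bits); the diagonal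
digit is 18, except 16 for vertex 320. -/
noncomputable def blkAll (f : Nat) : List Nat → Nat → Bool :=
  Nat.rec (motive := fun _ => List Nat → Nat → Bool) (fun _ _ => true)
    (fun _ ih l a => List.rec (motive := fun _ => Bool) false
      (fun r t _ => band
        (blkOK r (Nat.land (nbH (Nat.pow 2 a)) M321) a (Nat.sub 18 (Nat.mul 2 (Nat.div a 320))) 321 0)
        (ih t (Nat.succ a))) l) f

/-- `allBits g f C`: for the lowest set bit `L` of `C` (as a power of two), `g L (C xor L)` holds,
and then the same for `C xor L`, for at most `f` rounds; if bits remain after `f` rounds the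
answer is `false`. -/
noncomputable def allBits (g : Nat → Nat → Bool) (f : Nat) : Nat → Bool :=
  Nat.rec (motive := fun _ => Nat → Bool) (fun C => Nat.beq C 0)
    (fun _ ih C => Bool.rec (motive := fun _ => Bool)
      ((fun L => (fun D => band (g L D) (ih D)) (Nat.xor C L)) (Nat.gcd C P321))
      true
      (Nat.beq C 0)) f

/-- No vertex in `C`. -/
noncomputable def chk1 (C : Nat) : Bool := Nat.beq C 0
/-- No two adjacent vertices in `C`. -/
noncomputable def chk2 (C : Nat) : Bool := allBits (fun L D => chk1 (Nat.land D (nbH L))) 321 C
/-- No triangle in `C`. -/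
noncomputable def chk3 (C : Nat) : Bool := allBits (fun L D => chk2 (Nat.land D (nbH L))) 321 C
/-- No 4-clique in `C`. -/
noncomputable def chk4 (C : Nat) : Bool := allBits (fun L D => chk3 (Nat.land D (nbH L))) 321 C
/-- No 5-clique in `C`. -/
noncomputable def chk5 (C : Nat) : Bool := allBits (fun L D => chk4 (Nat.land D (nbH L))) 321 C

/-- `topOK f a`: for each of the vertices `a, a+1, ..., a+f-1`, there is no 5-clique among the
higher-numbered neighbours of that vertex. -/
noncomputable def topOK (f : Nat) : Nat → Bool :=
  Nat.rec (motive := fun _ => Nat → Bool) (fun _ => true)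
    (fun _ ih a => band
      (chk5 (Nat.land (Nat.sub P321 (Nat.pow 2 (Nat.succ a))) (nbH (Nat.pow 2 a))))
      (ih (Nat.succ a))) f

end Vale.Agent.Lib.P052.H21
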