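import Vale.Agent.Lib.P052.helper21.ChkDefs
import Vale.Agent.Lib.P052.helper21.ChkB

namespace Vale.Agent.Lib.P052.H21

theorem kE0 : blkAll 41 (rowsT.drop 0) 0 = true := by decide +kernel

theorem kE1 : blkAll 41 (rowsT.drop 41) 41 = true := by decide +kernel

theorem kE2 : blkAll 41 (rowsT.drop 82) 82 = true := by decide +kernel

theorem kE3 : blkAll 41 (rowsT.drop 123) 123 = true := by decide +kernel

theorem kE4 : blkAll 41 (rowsT.drop 164) 164 = true := by decide +kernel

theorem kE5 : blkAll 41 (rowsT.drop 205) 205 = true := by decide +kernel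

theorem kE6 : blkAll 41 (rowsT.drop 246) 246 = true := by decide +kernel

theorem kE7 : blkAll 34 (rowsT.drop 287) 287 = true := by decide +kernel

end Vale.Agent.Lib.P052.H21
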