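import Vale.Agent.Lib.P052.helper21.ChkDefs
import Vale.Agent.Lib.P052.helper21.ChkE

namespace Vale.Agent.Lib.P052.H21

theorem kF0 : topOK 2 0 = true := by decide +kernel

theorem kF1 : topOK 2 2 = true := by decide +kernel

theorem kF2 : topOK 2 4 = true := by decide +kernel

theorem kF3 : topOK 1 6 = true := by decide +kernel

theorem kF4 : topOK 1 7 = true := by decide +kernel

theorem kF5 : topOK 2 8 = true := by decide +kernel

theorem kF6 : topOK 2 10 = true := by decide +kernel

theorem kF7 : topOK 2 12 = true := by decide +kernel

theorem kF8 : topOK 2 14 = true := by decide +kernel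

theorem kF9 : topOK 1 16 = true := by decide +kernel

theorem kF10 : topOK 2 17 = true := by decide +kernel

end Vale.Agent.Lib.P052.H21
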