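import Vale.Agent.Lib.P052.helper21.ChkDefs
import Vale.Agent.Lib.P052.helper21.ChkF1

namespace Vale.Agent.Lib.P052.H21

theorem kF11 : topOK 2 19 = true := by decide +kernel

theorem kF12 : topOK 3 21 = true := by decide +kernel

theorem kF13 : topOK 3 24 = true := by decide +kernel

theorem kF14 : topOK 3 27 = true := by decide +kernel

theorem kF15 : topOK 3 30 = true := by decide +kernel

theorem kF16 : topOK 3 33 = true := by decide +kernel

theorem kF17 : topOK 3 36 = true := by decide +kernel

theorem kF18 : topOK 3 39 = true := by decide +kernel

theorem kF19 : topOK 3 42 = true := by decide +kernel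

theorem kF20 : topOK 3 45 = true := by decide +kernel

theorem kF21 : topOK 3 48 = true := by decide +kernel

end Vale.Agent.Lib.P052.H21
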