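import Vale.Agent.Lib.P052.helper21.ChkDefs
import Vale.Agent.Lib.P052.helper21.ChkF2

namespace Vale.Agent.Lib.P052.H21

theorem kF22 : topOK 3 51 = true := by decide +kernel

theorem kF23 : topOK 3 54 = true := by decide +kernel

theorem kF24 : topOK 4 57 = true := by decide +kernel

theorem kF25 : topOK 3 61 = true := by decide +kernel

theorem kF26 : topOK 4 64 = true := by decide +kernel

theorem kF27 : topOK 4 68 = true := by decide +kernel

theorem kF28 : topOK 5 72 = true := by decide +kernel

theorem kF29 : topOK 5 77 = true := by decide +kernel

theorem kF30 : topOK 5 82 = true := by decide +kernel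

theorem kF31 : topOK 5 87 = true := by decide +kernel

theorem kF32 : topOK 5 92 = true := by decide +kernel

end Vale.Agent.Lib.P052.H21
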