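import Vale.Agent.Lib.P052.helper21.ChkDefs
import Vale.Agent.Lib.P052.helper21.ChkF3

namespace Vale.Agent.Lib.P052.H21

theorem kF33 : topOK 4 97 = true := by decide +kernel

theorem kF34 : topOK 4 101 = true := by decide +kernel

theorem kF35 : topOK 6 105 = true := by decide +kernel

theorem kF36 : topOK 7 111 = true := by decide +kernel

theorem kF37 : topOK 5 118 = true := by decide +kernel

theorem kF38 : topOK 8 123 = true := by decide +kernel

theorem kF39 : topOK 9 131 = true := by decide +kernel

theorem kF40 : topOK 14 140 = true := by decide +kernel

theorem kF41 : topOK 21 154 = true := by decide +kernel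

theorem kF42 : topOK 35 175 = true := by decide +kernel

theorem kF43 : topOK 111 210 = true := by decide +kernel

end Vale.Agent.Lib.P052.H21
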