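import Vale.Agent.Lib.P052.helper21.Bridge
import Vale.Agent.Lib.P052.helper21.ChkB
import Vale.Agent.Lib.P052.helper21.ChkE
import Vale.Agent.Lib.P052.helper21.ChkF1
import Vale.Agent.Lib.P052.helper21.ChkF2
import Vale.Agent.Lib.P052.helper21.ChkF3
import Vale.Agent.Lib.P052.helper21.ChkF4

/-!
The kernel-checked facts are stated over short ranges (to keep each check small); here they are
put together into statements for every index.
-/

namespace Vale.Agent.Lib.P052.H21

/-- Every row has 416 digits, all at most 31. -/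
theorem rows_dig (k : ℕ) (hk : k < 416) : digOK (rowsT.getD k 0) 416 64 = true := by
  rcases Nat.lt_or_ge k 52 with h | h
  · have h1 := rowsOK_chunk rowsT 0 52 kA0 (k - 0) (by omega) (by have hL := kL; omega)
    rw [show 0 + (k - 0) = k by omega] at h1
    exact h1
  rcases Nat.lt_or_ge k 104 with h | h
  · have h1 := rowsOK_chunk rowsT 52 52 kA1 (k - 52) (by omega) (by have hL := kL; omega)
    rw [show 52 + (k - 52) = k by omega] at h1
    exact h1
  rcases Nat.lt_or_ge k 156 with h | h
  · have h1 := rowsOK_chunk rowsT 104 52 kA2 (k - 104) (by omega) (by have hL := kL; omega)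
    rw [show 104 + (k - 104) = k by omega] at h1
    exact h1
  rcases Nat.lt_or_ge k 208 with h | h
  · have h1 := rowsOK_chunk rowsT 156 52 kA3 (k - 156) (by omega) (by have hL := kL; omega)
    rw [show 156 + (k - 156) = k by omega] at h1
    exact h1
  rcases Nat.lt_or_ge k 260 with h | h
  · have h1 := rowsOK_chunk rowsT 208 52 kA4 (k - 208) (by omega) (by have hL := kL; omega)
    rw [show 208 + (k - 208) = k by omega] at h1
    exact h1
  rcases Nat.lt_or_ge k 312 with h | h
  · have h1 := rowsOK_chunk rowsT 260 52 kA5 (k - 260) (by omega) (by have hL := kL; omega)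
    rw [show 260 + (k - 260) = k by omega] at h1
    exact h1
  rcases Nat.lt_or_ge k 364 with h | h
  · have h1 := rowsOK_chunk rowsT 312 52 kA6 (k - 312) (by omega) (by have hL := kL; omega)
    rw [show 312 + (k - 312) = k by omega] at h1
    exact h1
  · have h1 := rowsOK_chunk rowsT 364 52 kA7 (k - 364) (by omega) (by have hL := kL; omega)
    rw [show 364 + (k - 364) = k by omega] at h1
    exact h1

/-- The column identity for every column. -/
theorem cols_id (i : ℕ) (hi : i < 416) :
    colSum (64 + 20 * i) rowsT = 96 * Nat.shiftRight (rowsT.getD i 0) 64 + Nat.mul 3456 repU := by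
  rcases Nat.lt_or_ge i 52 with h | h
  · have h1 := colsOK_chunk (Nat.mul 3456 repU) rowsT 0 52 64 kB0 (i - 0) (by omega) (by have hL := kL; omega)
    rw [show 0 + (i - 0) = i by omega, show 64 + 20 * (i - 0) = 64 + 20 * i by omega] at h1
    exact h1
  rcases Nat.lt_or_ge i 104 with h | h
  · have h1 := colsOK_chunk (Nat.mul 3456 repU) rowsT 52 52 1104 kB1 (i - 52) (by omega) (by have hL := kL; omega)
    rw [show 52 + (i - 52) = i by omega, show 1104 + 20 * (i - 52) = 64 + 20 * i by omega] at h1
    exact h1
  rcases Nat.lt_or_ge i 156 with h | h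
  · have h1 := colsOK_chunk (Nat.mul 3456 repU) rowsT 104 52 2144 kB2 (i - 104) (by omega) (by have hL := kL; omega)
    rw [show 104 + (i - 104) = i by omega, show 2144 + 20 * (i - 104) = 64 + 20 * i by omega] at h1
    exact h1
  rcases Nat.lt_or_ge i 208 with h | h
  · have h1 := colsOK_chunk (Nat.mul 3456 repU) rowsT 156 52 3184 kB3 (i - 156) (by omega) (by have hL := kL; omega)
    rw [show 156 + (i - 156) = i by omega, show 3184 + 20 * (i - 156) = 64 + 20 * i by omega] at h1
    exact h1
  rcases Nat.lt_or_ge i 260 with h | h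
  · have h1 := colsOK_chunk (Nat.mul 3456 repU) rowsT 208 52 4224 kB4 (i - 208) (by omega) (by have hL := kL; omega)
    rw [show 208 + (i - 208) = i by omega, show 4224 + 20 * (i - 208) = 64 + 20 * i by omega] at h1
    exact h1
  rcases Nat.lt_or_ge i 312 with h | h
  · have h1 := colsOK_chunk (Nat.mul 3456 repU) rowsT 260 52 5264 kB5 (i - 260) (by omega) (by have hL := kL; omega)
    rw [show 260 + (i - 260) = i by omega, show 5264 + 20 * (i - 260) = 64 + 20 * i by omega] at h1
    exact h1
  rcases Nat.lt_or_ge i 364 with h | h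
  · have h1 := colsOK_chunk (Nat.mul 3456 repU) rowsT 312 52 6304 kB6 (i - 312) (by omega) (by have hL := kL; omega)
    rw [show 312 + (i - 312) = i by omega, show 6304 + 20 * (i - 312) = 64 + 20 * i by omega] at h1
    exact h1
  · have h1 := colsOK_chunk (Nat.mul 3456 repU) rowsT 364 52 7344 kB7 (i - 364) (by omega) (by have hL := kL; omega)
    rw [show 364 + (i - 364) = i by omega, show 7344 + 20 * (i - 364) = 64 + 20 * i by omega] at h1
    exact h1

/-- The block check for every one of the 321 vertices. -/
theorem blk_id (a : ℕ) (ha : a < 321) :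
    blkOK (rowsT.getD a 0) (Nat.land (nbH (2 ^ a)) M321) a (18 - 2 * (a / 320)) 321 0 = true := by
  rcases Nat.lt_or_ge a 41 with h | h
  · have h1 := blkAll_chunk rowsT 41 0 kE0 (a - 0) (by omega)
    rw [show 0 + (a - 0) = a by omega] at h1
    exact h1
  rcases Nat.lt_or_ge a 82 with h | h
  · have h1 := blkAll_chunk rowsT 41 41 kE1 (a - 41) (by omega)
    rw [show 41 + (a - 41) = a by omega] at h1
    exact h1
  rcases Nat.lt_or_ge a 123 with h | h
  · have h1 := blkAll_chunk rowsT 41 82 kE2 (a - 82) (by omega)
    rw [show 82 + (a - 82) = a by omega] at h1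
    exact h1
  rcases Nat.lt_or_ge a 164 with h | h
  · have h1 := blkAll_chunk rowsT 41 123 kE3 (a - 123) (by omega)
    rw [show 123 + (a - 123) = a by omega] at h1
    exact h1
  rcases Nat.lt_or_ge a 205 with h | h
  · have h1 := blkAll_chunk rowsT 41 164 kE4 (a - 164) (by omega)
    rw [show 164 + (a - 164) = a by omega] at h1
    exact h1
  rcases Nat.lt_or_ge a 246 with h | h
  · have h1 := blkAll_chunk rowsT 41 205 kE5 (a - 205) (by omega)
    rw [show 205 + (a - 205) = a by omega] at h1
    exact h1
  rcases Nat.lt_or_ge a 287 with h | h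
  · have h1 := blkAll_chunk rowsT 41 246 kE6 (a - 246) (by omega)
    rw [show 246 + (a - 246) = a by omega] at h1
    exact h1
  · have h1 := blkAll_chunk rowsT 34 287 kE7 (a - 287) (by omega)
    rw [show 287 + (a - 287) = a by omega] at h1
    exact h1

/-- For every vertex there is no 5-clique among its higher-numbered neighbours. -/
theorem top_all (q : ℕ) (hq : q < 321) :
    chk5 (Nat.land (P321 - 2 ^ (q + 1)) (nbH (2 ^ q))) = true := by
  rcases Nat.lt_or_ge q 2 with h | h
  · have h1 := topOK_spec 2 0 kF0 (q - 0) (by omega)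
    rw [show 0 + (q - 0) = q by omega] at h1
    exact h1
  rcases Nat.lt_or_ge q 4 with h | h
  · have h1 := topOK_spec 2 2 kF1 (q - 2) (by omega)
    rw [show 2 + (q - 2) = q by omega] at h1
    exact h1
  rcases Nat.lt_or_ge q 6 with h | h
  · have h1 := topOK_spec 2 4 kF2 (q - 4) (by omega)
    rw [show 4 + (q - 4) = q by omega] at h1
    exact h1
  rcases Nat.lt_or_ge q 7 with h | h
  · have h1 := topOK_spec 1 6 kF3 (q - 6) (by omega)
    rw [show 6 + (q - 6) = q by omega] at h1
    exact h1
  rcases Nat.lt_or_ge q 8 with h | h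
  · have h1 := topOK_spec 1 7 kF4 (q - 7) (by omega)
    rw [show 7 + (q - 7) = q by omega] at h1
    exact h1
  rcases Nat.lt_or_ge q 10 with h | h
  · have h1 := topOK_spec 2 8 kF5 (q - 8) (by omega)
    rw [show 8 + (q - 8) = q by omega] at h1
    exact h1
  rcases Nat.lt_or_ge q 12 with h | h
  · have h1 := topOK_spec 2 10 kF6 (q - 10) (by omega)
    rw [show 10 + (q - 10) = q by omega] at h1
    exact h1
  rcases Nat.lt_or_ge q 14 with h | h
  · have h1 := topOK_spec 2 12 kF7 (q - 12) (by omega)
    rw [show 12 + (q - 12) = q by omega] at h1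
    exact h1
  rcases Nat.lt_or_ge q 16 with h | h
  · have h1 := topOK_spec 2 14 kF8 (q - 14) (by omega)
    rw [show 14 + (q - 14) = q by omega] at h1
    exact h1
  rcases Nat.lt_or_ge q 17 with h | h
  · have h1 := topOK_spec 1 16 kF9 (q - 16) (by omega)
    rw [show 16 + (q - 16) = q by omega] at h1
    exact h1
  rcases Nat.lt_or_ge q 19 with h | h
  · have h1 := topOK_spec 2 17 kF10 (q - 17) (by omega)
    rw [show 17 + (q - 17) = q by omega] at h1
    exact h1
  rcases Nat.lt_or_ge q 21 with h | h
  · have h1 := topOK_spec 2 19 kF11 (q - 19) (by omega)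
    rw [show 19 + (q - 19) = q by omega] at h1
    exact h1
  rcases Nat.lt_or_ge q 24 with h | h
  · have h1 := topOK_spec 3 21 kF12 (q - 21) (by omega)
    rw [show 21 + (q - 21) = q by omega] at h1
    exact h1
  rcases Nat.lt_or_ge q 27 with h | h
  · have h1 := topOK_spec 3 24 kF13 (q - 24) (by omega)
    rw [show 24 + (q - 24) = q by omega] at h1
    exact h1
  rcases Nat.lt_or_ge q 30 with h | h
  · have h1 := topOK_spec 3 27 kF14 (q - 27) (by omega)
    rw [show 27 + (q - 27) = q by omega] at h1
    exact h1
  rcases Nat.lt_or_ge q 33 with h | h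
  · have h1 := topOK_spec 3 30 kF15 (q - 30) (by omega)
    rw [show 30 + (q - 30) = q by omega] at h1
    exact h1
  rcases Nat.lt_or_ge q 36 with h | h
  · have h1 := topOK_spec 3 33 kF16 (q - 33) (by omega)
    rw [show 33 + (q - 33) = q by omega] at h1
    exact h1
  rcases Nat.lt_or_ge q 39 with h | h
  · have h1 := topOK_spec 3 36 kF17 (q - 36) (by omega)
    rw [show 36 + (q - 36) = q by omega] at h1
    exact h1
  rcases Nat.lt_or_ge q 42 with h | h
  · have h1 := topOK_spec 3 39 kF18 (q - 39) (by omega)
    rw [show 39 + (q - 39) = q by omega] at h1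
    exact h1
  rcases Nat.lt_or_ge q 45 with h | h
  · have h1 := topOK_spec 3 42 kF19 (q - 42) (by omega)
    rw [show 42 + (q - 42) = q by omega] at h1
    exact h1
  rcases Nat.lt_or_ge q 48 with h | h
  · have h1 := topOK_spec 3 45 kF20 (q - 45) (by omega)
    rw [show 45 + (q - 45) = q by omega] at h1
    exact h1
  rcases Nat.lt_or_ge q 51 with h | h
  · have h1 := topOK_spec 3 48 kF21 (q - 48) (by omega)
    rw [show 48 + (q - 48) = q by omega] at h1
    exact h1
  rcases Nat.lt_or_ge q 54 with h | h
  · have h1 := topOK_spec 3 51 kF22 (q - 51) (by omega)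
    rw [show 51 + (q - 51) = q by omega] at h1
    exact h1
  rcases Nat.lt_or_ge q 57 with h | h
  · have h1 := topOK_spec 3 54 kF23 (q - 54) (by omega)
    rw [show 54 + (q - 54) = q by omega] at h1
    exact h1
  rcases Nat.lt_or_ge q 61 with h | h
  · have h1 := topOK_spec 4 57 kF24 (q - 57) (by omega)
    rw [show 57 + (q - 57) = q by omega] at h1
    exact h1
  rcases Nat.lt_or_ge q 64 with h | h
  · have h1 := topOK_spec 3 61 kF25 (q - 61) (by omega)
    rw [show 61 + (q - 61) = q by omega] at h1
    exact h1
  rcases Nat.lt_or_ge q 68 with h | h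
  · have h1 := topOK_spec 4 64 kF26 (q - 64) (by omega)
    rw [show 64 + (q - 64) = q by omega] at h1
    exact h1
  rcases Nat.lt_or_ge q 72 with h | h
  · have h1 := topOK_spec 4 68 kF27 (q - 68) (by omega)
    rw [show 68 + (q - 68) = q by omega] at h1
    exact h1
  rcases Nat.lt_or_ge q 77 with h | h
  · have h1 := topOK_spec 5 72 kF28 (q - 72) (by omega)
    rw [show 72 + (q - 72) = q by omega] at h1
    exact h1
  rcases Nat.lt_or_ge q 82 with h | h
  · have h1 := topOK_spec 5 77 kF29 (q - 77) (by omega)
    rw [show 77 + (q - 77) = q by omega] at h1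
    exact h1
  rcases Nat.lt_or_ge q 87 with h | h
  · have h1 := topOK_spec 5 82 kF30 (q - 82) (by omega)
    rw [show 82 + (q - 82) = q by omega] at h1
    exact h1
  rcases Nat.lt_or_ge q 92 with h | h
  · have h1 := topOK_spec 5 87 kF31 (q - 87) (by omega)
    rw [show 87 + (q - 87) = q by omega] at h1
    exact h1
  rcases Nat.lt_or_ge q 97 with h | h
  · have h1 := topOK_spec 5 92 kF32 (q - 92) (by omega)
    rw [show 92 + (q - 92) = q by omega] at h1
    exact h1
  rcases Nat.lt_or_ge q 101 with h | h
  · have h1 := topOK_spec 4 97 kF33 (q - 97) (by omega)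
    rw [show 97 + (q - 97) = q by omega] at h1
    exact h1
  rcases Nat.lt_or_ge q 105 with h | h
  · have h1 := topOK_spec 4 101 kF34 (q - 101) (by omega)
    rw [show 101 + (q - 101) = q by omega] at h1
    exact h1
  rcases Nat.lt_or_ge q 111 with h | h
  · have h1 := topOK_spec 6 105 kF35 (q - 105) (by omega)
    rw [show 105 + (q - 105) = q by omega] at h1
    exact h1
  rcases Nat.lt_or_ge q 118 with h | h
  · have h1 := topOK_spec 7 111 kF36 (q - 111) (by omega)
    rw [show 111 + (q - 111) = q by omega] at h1
    exact h1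
  rcases Nat.lt_or_ge q 123 with h | h
  · have h1 := topOK_spec 5 118 kF37 (q - 118) (by omega)
    rw [show 118 + (q - 118) = q by omega] at h1
    exact h1
  rcases Nat.lt_or_ge q 131 with h | h
  · have h1 := topOK_spec 8 123 kF38 (q - 123) (by omega)
    rw [show 123 + (q - 123) = q by omega] at h1
    exact h1
  rcases Nat.lt_or_ge q 140 with h | h
  · have h1 := topOK_spec 9 131 kF39 (q - 131) (by omega)
    rw [show 131 + (q - 131) = q by omega] at h1
    exact h1
  rcases Nat.lt_or_ge q 154 with h | h
  · have h1 := topOK_spec 14 140 kF40 (q - 140) (by omega)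
    rw [show 140 + (q - 140) = q by omega] at h1
    exact h1
  rcases Nat.lt_or_ge q 175 with h | h
  · have h1 := topOK_spec 21 154 kF41 (q - 154) (by omega)
    rw [show 154 + (q - 154) = q by omega] at h1
    exact h1
  rcases Nat.lt_or_ge q 210 with h | h
  · have h1 := topOK_spec 35 175 kF42 (q - 175) (by omega)
    rw [show 175 + (q - 175) = q by omega] at h1
    exact h1
  · have h1 := topOK_spec 111 210 kF43 (q - 210) (by omega)
    rw [show 210 + (q - 210) = q by omega] at h1
    exact h1

end Vale.Agent.Lib.P052.H21
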