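import Vale.Agent.Lib.P052.helper21.Chunks

/-!
The facts about the entries `ent k j` (entries of the matrix shifted by 3) and about the
graph `adjB` that the final argument uses.
-/

namespace Vale.Agent.Lib.P052.H21

/-- The entry in row `k` and column `j` of the stored matrix, shifted by 3. -/
def ent (k j : ℕ) : ℕ := dgt (val (rowsT.getD k 0)) j

theorem ent_le (k j : ℕ) (hk : k < 416) (hj : j < 416) : ent k j ≤ 31 := by
  have h := (digOK_spec (rowsT.getD k 0) 416 64 (rows_dig k hk)).1 j hj
  rw [shift_digit] at h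
  exact h

theorem val_lt (k : ℕ) (hk : k < 416) : val (rowsT.getD k 0) < BX ^ 416 := by
  have h := (digOK_spec (rowsT.getD k 0) 416 64 (rows_dig k hk)).2
  have h2 : val (rowsT.getD k 0) / BX ^ 416 = 0 := by
    have h3 : Nat.shiftRight (rowsT.getD k 0) (64 + 20 * 416) = val (rowsT.getD k 0) / BX ^ 416 := by
      show (rowsT.getD k 0) >>> (64 + 20 * 416) = _
      rw [Nat.shiftRight_eq_div_pow, val, Nat.div_div_eq_div_mul, BX_eq, ← pow_mul, ← pow_add]
    rw [← h3]
    exact h
  rcases (Nat.div_eq_zero_iff).mp h2 with h4 | h4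
  · exact absurd h4 (pow_ne_zero 416 BX_pos.ne')
  · exact h4

theorem val_expand (k : ℕ) (hk : k < 416) :
    val (rowsT.getD k 0) = ∑ j ∈ Finset.range 416, ent k j * BX ^ j :=
  digit_expand BX BX_pos 416 _ (val_lt k hk)

/-- Column `i` against column `j`: the Gram identity, with all entries shifted by 3. -/
theorem ent_gram (i j : ℕ) (hi : i < 416) (hj : j < 416) :
    ∑ k ∈ Finset.range 416, ent k i * ent k j = 96 * ent i j + 3456 := by
  have h1 := cols_id i hi
  rw [colSum_eq, kL] at h1
  simp only [shift_digit, shift_val] at h1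
  have h2 : ∑ k ∈ Finset.range 416, ent k i * val (rowsT.getD k 0) =
      ∑ j' ∈ Finset.range 416, (∑ k ∈ Finset.range 416, ent k i * ent k j') * BX ^ j' := by
    rw [Finset.sum_congr rfl (fun k hk => by
      rw [val_expand k (Finset.mem_range.mp hk), Finset.mul_sum])]
    rw [Finset.sum_comm]
    apply Finset.sum_congr rfl
    intro j' _
    rw [Finset.sum_mul]
    apply Finset.sum_congr rfl
    intro k _
    ring
  have h3 : 96 * val (rowsT.getD i 0) + Nat.mul 3456 repU =
      ∑ j' ∈ Finset.range 416, (96 * ent i j' + 3456) * BX ^ j' := by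
    rw [val_expand i hi, ← repU_eq, Nat.mul_eq]
    rw [Finset.mul_sum, Finset.mul_sum, ← Finset.sum_add_distrib]
    apply Finset.sum_congr rfl
    intro j' _
    ring
  have h5 : ∑ j' ∈ Finset.range 416, (∑ k ∈ Finset.range 416, ent k i * ent k j') * BX ^ j' =
      ∑ j' ∈ Finset.range 416, (96 * ent i j' + 3456) * BX ^ j' := by
    rw [← h2, ← h3]
    exact h1
  refine digit_unique BX BX_pos 416 (fun j' => ∑ k ∈ Finset.range 416, ent k i * ent k j')
    (fun j' => 96 * ent i j' + 3456) ?_ ?_ h5 j hj
  · intro j' hj'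
    calc ∑ k ∈ Finset.range 416, ent k i * ent k j'
        ≤ ∑ k ∈ Finset.range 416, 31 * 31 := Finset.sum_le_sum (fun k hk =>
          Nat.mul_le_mul (ent_le k i (Finset.mem_range.mp hk) hi)
            (ent_le k j' (Finset.mem_range.mp hk) hj'))
      _ < BX := by simp [BX]
  · intro j' hj'
    have h6 := ent_le i j' hi hj'
    show 96 * ent i j' + 3456 < BX
    have h7 : BX = 1048576 := rfl
    omega

/-- Every column sums to 1248 (so the columns of the unshifted matrix sum to 0). -/
theorem ent_colsum (j : ℕ) (hj : j < 416) : ∑ k ∈ Finset.range 416, ent k j = 1248 := by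
  have h1 := Nat.eq_of_beq_eq_true kC
  rw [rowSum_eq, kL] at h1
  simp only [shift_val] at h1
  have h2 : ∑ k ∈ Finset.range 416, val (rowsT.getD k 0) =
      ∑ j' ∈ Finset.range 416, (∑ k ∈ Finset.range 416, ent k j') * BX ^ j' := by
    rw [Finset.sum_congr rfl (fun k hk => val_expand k (Finset.mem_range.mp hk)),
      Finset.sum_comm]
    apply Finset.sum_congr rfl
    intro j' _
    rw [Finset.sum_mul]
  have h3 : Nat.mul 1248 repU = ∑ j' ∈ Finset.range 416, 1248 * BX ^ j' := by
    rw [← repU_eq, Nat.mul_eq]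
    rw [Finset.mul_sum]
  have h5 : ∑ j' ∈ Finset.range 416, (∑ k ∈ Finset.range 416, ent k j') * BX ^ j' =
      ∑ j' ∈ Finset.range 416, 1248 * BX ^ j' := by
    rw [← h2, ← h3]
    exact h1
  refine digit_unique BX BX_pos 416 (fun j' => ∑ k ∈ Finset.range 416, ent k j')
    (fun _ => 1248) ?_ ?_ h5 j hj
  · intro j' hj'
    calc ∑ k ∈ Finset.range 416, ent k j'
        ≤ ∑ k ∈ Finset.range 416, 31 := Finset.sum_le_sum (fun k hk =>
          ent_le k j' (Finset.mem_range.mp hk) hj')
      _ < BX := by simp [BX]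
  · intro j' _
    show 1248 < BX
    have h7 : BX = 1048576 := rfl
    omega

/-- The diagonal entries sum to 7296 (so the unshifted matrix has trace 6048). -/
theorem ent_trace : ∑ i ∈ Finset.range 416, ent i i = 7296 := by
  have h1 := Nat.eq_of_beq_eq_true kD
  rw [trSum_spec, kL] at h1
  simp only [shift_digit] at h1
  exact h1

theorem shift_mod_two (m u : ℕ) :
    Nat.shiftRight m u % 2 = if m.testBit u = true then 1 else 0 := by
  show (m >>> u) % 2 = _
  rw [Nat.testBit_eq_decide_div_mod_eq, Nat.shiftRight_eq_div_pow]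
  rcases Nat.mod_two_eq_zero_or_one (m / 2 ^ u) with h | h <;> simp [h]

/-- The entries with both indices below 321: the diagonal is 18 (16 for vertex 320), and off the
diagonal the entry is 6 for adjacent vertices and 2 otherwise. -/
theorem ent_block (a b : ℕ) (ha : a < 321) (hb : b < 321) :
    ent a b = if b = a then 18 - 2 * (a / 320) else 2 + 4 * (if adjB a b = true then 1 else 0) := by
  have h2 := blkOK_spec _ _ _ _ 321 0 (blk_id a ha) b hb
  rw [Nat.zero_add, shift_mod_two] at h2
  have h3 : (Nat.land (nbH (2 ^ a)) M321).testBit b = adjB a b := by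
    show (nbH (2 ^ a) &&& M321).testBit b = (nbH (2 ^ a)).testBit b
    have hM : M321 = 2 ^ 321 - 1 := by
      have h4 : Nat.add M321 1 = P321 := kM
      have h5 : P321 = Nat.pow 2 321 := kP
      have h6 : M321 + 1 = 2 ^ 321 := h4.trans h5
      exact Nat.eq_sub_of_add_eq h6
    rw [Nat.testBit_and, hM, Nat.testBit_two_pow_sub_one]
    simp [hb]
  rw [h3] at h2
  exact h2

/-- Vertices 0 and 1 are not adjacent. -/
theorem kNon : adjB 0 1 = false := by decide +kernel

/-- The graph on the vertices `0, ..., 320` has no clique of six vertices. -/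
theorem no_six (l : List ℕ) (hl : l.length = 6)
    (hp : l.Pairwise (fun a b => a < b ∧ adjB a b = true)) (hlt : ∀ a ∈ l, a < 321) : False := by
  match l, hl with
  | q :: l', hl' =>
    rw [List.pairwise_cons] at hp
    have hq : q < 321 := hlt q (by simp)
    refine noCl_five _ (top_all q hq) l' (by simpa using hl') hp.2 ?_
    intro b hb
    have hab := hp.1 b hb
    have hb321 : b < 321 := hlt b (by simp [hb])
    show ((P321 - 2 ^ (q + 1)) &&& nbH (2 ^ q)).testBit b = true
    rw [Nat.testBit_and]
    have e : P321 - 2 ^ (q + 1) = 2 ^ (q + 1) * (2 ^ (320 - q) - 1) := by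
      rw [kP]
      show 2 ^ 321 - 2 ^ (q + 1) = _
      rw [Nat.mul_sub, ← pow_add, mul_one]
      congr 2
      omega
    rw [e, Nat.testBit_two_pow_mul, Nat.testBit_two_pow_sub_one]
    have h1 : decide (b ≥ q + 1) = true := by simp; omega
    have h2 : decide (b - (q + 1) < 320 - q) = true := by simp; omega
    rw [h1, h2]
    simpa [adjB] using hab.2

end Vale.Agent.Lib.P052.H21
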