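import Mathlib

/-!
Two general lemmas: a matrix `N` with `Nᵀ N = c N` and trace `c d` is a Gram matrix in
dimension `d`; and the counting argument behind a failure of the partition conjecture.
-/

namespace Vale.Agent.Lib.P052.H21


/-- If `Nᵀ N = c N` with `c > 0` and `trace N = c d`, then `N` is the Gram matrix of `m` vectors
of the Euclidean space of dimension `d`. -/
theorem gram_embed {m d : ℕ} (N : Matrix (Fin m) (Fin m) ℝ) (c : ℝ) (hc : 0 < c)
    (h1 : N.transpose * N = c • N) (h2 : N.trace = c * d) :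
    ∃ q : Fin m → EuclideanSpace ℝ (Fin d), ∀ i j, inner ℝ (q i) (q j) = N i j := by
  classical
  have hsymm : N.transpose = N := by
    have h := congrArg Matrix.transpose h1
    rw [Matrix.transpose_mul, Matrix.transpose_transpose, Matrix.transpose_smul, h1] at h
    exact (smul_right_injective _ hc.ne' h).symm
  have hNN : N * N = c • N := by
    have h := h1
    rw [hsymm] at h
    exact h
  set P : Matrix (Fin m) (Fin m) ℝ := c⁻¹ • N with hP
  have hPP : P * P = P := by
    rw [hP, Matrix.smul_mul, Matrix.mul_smul, hNN, smul_smul, smul_smul]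
    congr 1
    field_simp
  set T : EuclideanSpace ℝ (Fin m) →ₗ[ℝ] EuclideanSpace ℝ (Fin m) := Matrix.toLpLin 2 2 P with hT
  have hTT : IsIdempotentElem T := by
    show T * T = T
    rw [hT, Module.End.mul_eq_comp, ← Matrix.toLpLin_mul_same, hPP]
  have hproj := LinearMap.IsIdempotentElem.isProj_range T hTT
  have htr : LinearMap.trace ℝ _ T = (Module.finrank ℝ (LinearMap.range T) : ℝ) := hproj.trace
  have htr2 : LinearMap.trace ℝ _ T = P.trace := by
    rw [LinearMap.trace_eq_matrix_trace ℝ (PiLp.basisFun 2 ℝ (Fin m)) T, hT,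
      Matrix.toLpLin_eq_toLin, LinearMap.toMatrix_toLin]
  have hfr : Module.finrank ℝ (LinearMap.range T) = d := by
    have h : (Module.finrank ℝ (LinearMap.range T) : ℝ) = d := by
      rw [← htr, htr2, hP, Matrix.trace_smul, h2, smul_eq_mul]
      field_simp
    exact_mod_cast h
  let b : OrthonormalBasis (Fin d) ℝ (LinearMap.range T) :=
    (stdOrthonormalBasis ℝ (LinearMap.range T)).reindex (finCongr hfr)
  have hNT : ∀ x, Matrix.toLpLin 2 2 N x = T (c • x) := by
    intro x
    have hN : N = c • P := by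
      rw [hP, smul_smul, mul_inv_cancel₀ hc.ne', one_smul]
    rw [hT, map_smul, hN, map_smul, LinearMap.smul_apply]
  have hmem : ∀ i : Fin m, Matrix.toLpLin 2 2 N (WithLp.toLp 2 (Pi.single i (1:ℝ))) ∈ LinearMap.range T := by
    intro i
    rw [hNT]
    exact LinearMap.mem_range_self T _
  have hentry : ∀ i k : Fin m, (Matrix.toLpLin 2 2 N (WithLp.toLp 2 (Pi.single i (1:ℝ))) :
      EuclideanSpace ℝ (Fin m)) k = N k i := by
    intro i k
    simp [Matrix.toLpLin_apply]
  have hsq : 0 < Real.sqrt c := Real.sqrt_pos.mpr hc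
  refine ⟨fun i => b.repr ⟨(Real.sqrt c)⁻¹ • Matrix.toLpLin 2 2 N (WithLp.toLp 2 (Pi.single i (1:ℝ))),
    Submodule.smul_mem _ _ (hmem i)⟩, ?_⟩
  intro i j
  rw [LinearIsometryEquiv.inner_map_map, Submodule.coe_inner]
  simp only [inner_smul_left, inner_smul_right, PiLp.inner_apply]
  have hsum : ∑ k, inner ℝ ((Matrix.toLpLin 2 2 N (WithLp.toLp 2 (Pi.single i (1:ℝ))) :
      EuclideanSpace ℝ (Fin m)) k) ((Matrix.toLpLin 2 2 N (WithLp.toLp 2 (Pi.single j (1:ℝ))) :
      EuclideanSpace ℝ (Fin m)) k) = c * N i j := by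
    simp only [hentry]
    have h := congrFun (congrFun h1 i) j
    rw [Matrix.mul_apply, Matrix.smul_apply, smul_eq_mul] at h
    rw [← h]
    refine Finset.sum_congr rfl (fun k _ => ?_)
    simp [Matrix.transpose_apply, mul_comm]
  rw [hsum]
  have hcc : (Real.sqrt c)⁻¹ * ((Real.sqrt c)⁻¹ * c) = 1 := by
    have h := Real.mul_self_sqrt hc.le
    field_simp
    nlinarith [h]
  simp only [conj_trivial]
  calc (Real.sqrt c)⁻¹ * ((Real.sqrt c)⁻¹ * (c * N i j))
      = ((Real.sqrt c)⁻¹ * ((Real.sqrt c)⁻¹ * c)) * N i j := by ring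
    _ = N i j := by rw [hcc, one_mul]



/-- The partition argument: a finite family of points, all at mutual distance at most `D`, some
pair at distance exactly `D`, such that any set of indices whose points are pairwise closer than
`D` has at most `w` elements, and with more than `k * w` indices, cannot be covered by `k` sets
of diameter smaller than its own diameter `D`. -/
theorem borsuk_core {E : Type*} [MetricSpace E] {ι : Type*} [Fintype ι] [DecidableEq ι]
    (pt : ι → E) (D : ℝ) (hD : 0 < D)
    (adj : ι → ι → Prop) (k w : ℕ)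
    (hle : ∀ i j, dist (pt i) (pt j) ≤ D)
    (hlt : ∀ i j, i ≠ j → dist (pt i) (pt j) < D → adj i j)
    (hex : ∃ i j, dist (pt i) (pt j) = D)
    (hcl : ∀ T : Finset ι, (∀ i ∈ T, ∀ j ∈ T, i ≠ j → adj i j) → T.card ≤ w)
    (hcard : k * w < Fintype.card ι) :
    Metric.diam (Set.range pt) = D ∧
      ¬ ∃ P : Fin k → Set E, Set.range pt = ⋃ c, P c ∧
        ∀ c, Metric.diam (P c) < Metric.diam (Set.range pt) := by
  have hbdd : Bornology.IsBounded (Set.range pt) := (Set.finite_range pt).isBounded
  have hdiam : Metric.diam (Set.range pt) = D := by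
    apply le_antisymm
    · apply Metric.diam_le_of_forall_dist_le hD.le
      rintro _ ⟨i, rfl⟩ _ ⟨j, rfl⟩
      exact hle i j
    · obtain ⟨i, j, hij⟩ := hex
      rw [← hij]
      exact Metric.dist_le_diam_of_mem hbdd ⟨i, rfl⟩ ⟨j, rfl⟩
  refine ⟨hdiam, ?_⟩
  rintro ⟨P, hP, hPd⟩
  rw [hdiam] at hPd
  have hsub : ∀ c, P c ⊆ Set.range pt := by
    intro c
    rw [hP]
    exact Set.subset_iUnion P c
  have hmemP : ∀ i, ∃ c, pt i ∈ P c := by
    intro i
    have h : pt i ∈ Set.range pt := ⟨i, rfl⟩
    rw [hP] at h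
    exact Set.mem_iUnion.mp h
  choose col hcol using hmemP
  have hcard' : Fintype.card (Fin k) * w < Fintype.card ι := by
    rw [Fintype.card_fin]
    exact hcard
  obtain ⟨c, hc⟩ := Fintype.exists_lt_card_fiber_of_mul_lt_card col hcard'
  have hT := hcl (Finset.univ.filter (fun x => col x = c)) (by
    intro i hi j hj hij
    have hi' : col i = c := (Finset.mem_filter.mp hi).2
    have hj' : col j = c := (Finset.mem_filter.mp hj).2
    apply hlt i j hij
    have h1 : pt i ∈ P c := hi' ▸ hcol i
    have h2 : pt j ∈ P c := hj' ▸ hcol j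
    exact lt_of_le_of_lt (Metric.dist_le_diam_of_mem (hbdd.subset (hsub c)) h1 h2) (hPd c))
  omega


end Vale.Agent.Lib.P052.H21
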