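import Vale.Agent.Lib.P052.helper21.Facts
import Vale.Agent.Lib.P052.helper21.Geom

/-!
The 321-point set in dimension 63 that cannot be covered by 64 sets of smaller diameter.
-/

namespace Vale.Agent.Lib.P052.H21

/-- The real symmetric matrix `N`: the stored entries minus 3. -/
noncomputable def NR : Matrix (Fin 416) (Fin 416) ℝ := fun i j => (ent i j : ℝ) - 3

theorem NR_gram : NR.transpose * NR = (96 : ℝ) • NR := by
  ext i j
  rw [Matrix.mul_apply, Matrix.smul_apply, smul_eq_mul]
  simp only [Matrix.transpose_apply, NR]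
  have hA : (∑ k ∈ Finset.range 416, (ent k i : ℝ) * (ent k j : ℝ)) = 96 * (ent i j : ℝ) + 3456 := by
    exact_mod_cast ent_gram i j i.isLt j.isLt
  have hB : (∑ k ∈ Finset.range 416, (ent k i : ℝ)) = 1248 := by
    exact_mod_cast ent_colsum i i.isLt
  have hC : (∑ k ∈ Finset.range 416, (ent k j : ℝ)) = 1248 := by
    exact_mod_cast ent_colsum j j.isLt
  have hsum : ∑ k : Fin 416, ((ent k i : ℝ) - 3) * ((ent k j : ℝ) - 3) =
      ∑ k ∈ Finset.range 416, ((ent k i : ℝ) - 3) * ((ent k j : ℝ) - 3) :=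
    Fin.sum_univ_eq_sum_range (fun k => ((ent k i : ℝ) - 3) * ((ent k j : ℝ) - 3)) 416
  have hexp : ∑ k ∈ Finset.range 416, ((ent k i : ℝ) - 3) * ((ent k j : ℝ) - 3) =
      (∑ k ∈ Finset.range 416, (ent k i : ℝ) * (ent k j : ℝ))
        - 3 * (∑ k ∈ Finset.range 416, (ent k i : ℝ))
        - 3 * (∑ k ∈ Finset.range 416, (ent k j : ℝ)) + 9 * 416 := by
    rw [Finset.mul_sum, Finset.mul_sum, ← Finset.sum_sub_distrib, ← Finset.sum_sub_distrib]
    have h9 : (9 * 416 : ℝ) = ∑ k ∈ Finset.range 416, (9 : ℝ) := by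
      rw [Finset.sum_const, Finset.card_range]
      norm_num
    rw [h9, ← Finset.sum_add_distrib]
    apply Finset.sum_congr rfl
    intro k _
    ring
  rw [hsum, hexp, hA, hB, hC]
  ring

theorem NR_trace : NR.trace = 96 * ((63 : ℕ) : ℝ) := by
  rw [Matrix.trace]
  simp only [Matrix.diag_apply, NR]
  have hsum : ∑ i : Fin 416, ((ent i i : ℝ) - 3) = ∑ i ∈ Finset.range 416, ((ent i i : ℝ) - 3) :=
    Fin.sum_univ_eq_sum_range (fun i => ((ent i i : ℝ) - 3)) 416
  have hT : (∑ i ∈ Finset.range 416, (ent i i : ℝ)) = 7296 := by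
    exact_mod_cast ent_trace
  rw [hsum, Finset.sum_sub_distrib, hT, Finset.sum_const, Finset.card_range]
  norm_num

/-- Off the diagonal, the entries with indices below 321 are 2 or 6. -/
theorem ent_two_or_six (a b : ℕ) (ha : a < 321) (hb : b < 321) (hab : a ≠ b) :
    ent a b = 2 ∨ ent a b = 6 := by
  rw [ent_block a b ha hb, if_neg (Ne.symm hab)]
  by_cases h : adjB a b = true
  · right
    rw [if_pos h]
  · left
    rw [if_neg h]

theorem ent_six_adj (a b : ℕ) (ha : a < 321) (hb : b < 321) (hab : a ≠ b) (h6 : ent a b = 6) :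
    adjB a b = true := by
  rw [ent_block a b ha hb, if_neg (Ne.symm hab)] at h6
  by_contra h
  rw [if_neg h] at h6
  omega

theorem ent_diag (a : ℕ) (ha : a < 321) : ent a a = if a = 320 then 16 else 18 := by
  rw [ent_block a a ha ha, if_pos rfl]
  split_ifs with h
  · subst h
    rfl
  · have h2 : a / 320 = 0 := Nat.div_eq_of_lt (by omega)
    rw [h2]

/-- A set of vertices below 321 that are pairwise joined by entries 6 has at most 5 elements. -/
theorem clique_le_five (T : Finset (Fin 321))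
    (hT : ∀ i ∈ T, ∀ j ∈ T, i ≠ j → ent i j = 6) : T.card ≤ 5 := by
  by_contra hcard
  have h6 : 6 ≤ T.card := by omega
  have hpw : (T.sort).Pairwise (· < ·) := (Finset.sortedLT_sort T).pairwise
  have hpw6 : ((T.sort).take 6).Pairwise (· < ·) := hpw.sublist (List.take_sublist 6 _)
  have hmem : ∀ x ∈ (T.sort).take 6, x ∈ T := fun x hx =>
    (Finset.mem_sort (· ≤ ·)).mp (List.mem_of_mem_take hx)
  refine no_six (((T.sort).take 6).map (fun x : Fin 321 => x.val)) ?_ ?_ ?_
  · rw [List.length_map, List.length_take, Finset.length_sort]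
    omega
  · rw [List.pairwise_map]
    refine hpw6.imp_of_mem ?_
    intro x y hx hy hxy
    have hne : x ≠ y := ne_of_lt hxy
    refine ⟨hxy, ent_six_adj x y x.isLt y.isLt (fun h => hne (Fin.ext h)) ?_⟩
    exact hT x (hmem x hx) y (hmem y hy) hne
  · intro a ha
    obtain ⟨x, _, rfl⟩ := List.mem_map.mp ha
    exact x.isLt

/-- A set of 321 points in the Euclidean space of dimension 63 that is not a union of 64 sets
of smaller diameter. -/
theorem borsuk63 : ∃ Y : Set (EuclideanSpace ℝ (Fin 63)), Y.Finite ∧ 0 < Metric.diam Y ∧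
    ¬ ∃ P : Fin 64 → Set (EuclideanSpace ℝ (Fin 63)),
      Y = ⋃ c, P c ∧ ∀ c, Metric.diam (P c) < Metric.diam Y := by
  obtain ⟨q, hq⟩ := gram_embed NR 96 (by norm_num) NR_gram NR_trace
  -- the scaling factor of the extra point
  have hs : Real.sqrt 222 ^ 2 = 222 := Real.sq_sqrt (by norm_num)
  have hs0 : 0 ≤ Real.sqrt 222 := Real.sqrt_nonneg 222
  have hs14 : 14 < Real.sqrt 222 := by
    by_contra h
    have h1 : Real.sqrt 222 ≤ 14 := not_lt.mp h
    nlinarith
  have hs15 : Real.sqrt 222 < 15 := by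
    by_contra h
    have h1 : 15 ≤ Real.sqrt 222 := not_lt.mp h
    nlinarith
  obtain ⟨lam, hlam⟩ : ∃ lam : ℝ, lam = (Real.sqrt 222 - 1) / 13 := ⟨_, rfl⟩
  have hlam_pos : 0 < lam := by
    rw [hlam]
    apply div_pos
    · linarith
    · norm_num
  have hlam_lt : lam < 2 := by
    rw [hlam, div_lt_iff₀ (by norm_num)]
    linarith
  have hlam_eq : 13 * lam ^ 2 + 2 * lam = 17 := by
    rw [hlam]
    field_simp
    nlinarith
  -- the points
  let e : Fin 321 → Fin 416 := Fin.castLE (by norm_num)
  let sc : Fin 321 → ℝ := fun a => if a.val = 320 then lam else 1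
  let pt : Fin 321 → EuclideanSpace ℝ (Fin 63) := fun a => sc a • q (e a)
  have hin : ∀ a b : Fin 321, inner ℝ (q (e a)) (q (e b)) = (ent a b : ℝ) - 3 :=
    fun a b => hq (e a) (e b)
  have hdist : ∀ a b : Fin 321, dist (pt a) (pt b) ^ 2 =
      sc a ^ 2 * ((ent a a : ℝ) - 3) - 2 * (sc a * sc b * ((ent a b : ℝ) - 3))
        + sc b ^ 2 * ((ent b b : ℝ) - 3) := by
    intro a b
    have h1 : ‖pt a‖ ^ 2 = sc a ^ 2 * ((ent a a : ℝ) - 3) := by
      show ‖sc a • q (e a)‖ ^ 2 = _
      rw [norm_smul, mul_pow, Real.norm_eq_abs, sq_abs, ← real_inner_self_eq_norm_sq, hin]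
    have h2 : ‖pt b‖ ^ 2 = sc b ^ 2 * ((ent b b : ℝ) - 3) := by
      show ‖sc b • q (e b)‖ ^ 2 = _
      rw [norm_smul, mul_pow, Real.norm_eq_abs, sq_abs, ← real_inner_self_eq_norm_sq, hin]
    have h3 : inner ℝ (pt a) (pt b) = sc a * sc b * ((ent a b : ℝ) - 3) := by
      show inner ℝ (sc a • q (e a)) (sc b • q (e b)) = _
      rw [real_inner_smul_left, real_inner_smul_right, hin]
      ring
    rw [dist_eq_norm, norm_sub_sq_real, h1, h2, h3]
  have hdiag : ∀ a : Fin 321, sc a ^ 2 * ((ent a a : ℝ) - 3) =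
      if a.val = 320 then 13 * lam ^ 2 else 15 := by
    intro a
    rw [ent_diag a a.isLt]
    show (if a.val = 320 then lam else 1) ^ 2 * (((if a.val = 320 then 16 else 18 : ℕ) : ℝ) - 3) = _
    split_ifs with h
    · push_cast
      ring
    · push_cast
      ring
  -- the two possible distances
  have hfar : ∀ a b : Fin 321, a ≠ b → ent a b = 2 → dist (pt a) (pt b) ^ 2 = 32 := by
    intro a b hab h2
    rw [hdist, hdiag, hdiag, h2]
    have hne : ¬ (a.val = 320 ∧ b.val = 320) := fun h => hab (Fin.ext (h.1.trans h.2.symm))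
    show (if a.val = 320 then 13 * lam ^ 2 else 15)
      - 2 * ((if a.val = 320 then lam else 1) * (if b.val = 320 then lam else 1) * (((2 : ℕ) : ℝ) - 3))
      + (if b.val = 320 then 13 * lam ^ 2 else 15) = 32
    split_ifs with ha hb hb
    · exact absurd ⟨ha, hb⟩ hne
    · push_cast
      linarith
    · push_cast
      linarith
    · push_cast
      norm_num
  have hnear : ∀ a b : Fin 321, a ≠ b → ent a b = 6 → dist (pt a) (pt b) ^ 2 < 32 := by
    intro a b hab h6
    rw [hdist, hdiag, hdiag, h6]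
    have hne : ¬ (a.val = 320 ∧ b.val = 320) := fun h => hab (Fin.ext (h.1.trans h.2.symm))
    show (if a.val = 320 then 13 * lam ^ 2 else 15)
      - 2 * ((if a.val = 320 then lam else 1) * (if b.val = 320 then lam else 1) * (((6 : ℕ) : ℝ) - 3))
      + (if b.val = 320 then 13 * lam ^ 2 else 15) < 32
    split_ifs with ha hb hb
    · exact absurd ⟨ha, hb⟩ hne
    · push_cast
      linarith
    · push_cast
      linarith
    · push_cast
      norm_num
  have h32 : (0 : ℝ) < Real.sqrt 32 := Real.sqrt_pos.mpr (by norm_num)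
  have h32sq : Real.sqrt 32 ^ 2 = 32 := Real.sq_sqrt (by norm_num)
  have hcore := borsuk_core pt (Real.sqrt 32) h32 (fun a b => ent a b = 6) 64 5
    (by
      intro a b
      by_cases hab : a = b
      · rw [hab, dist_self]
        exact h32.le
      · have hd : dist (pt a) (pt b) ^ 2 ≤ 32 := by
          rcases ent_two_or_six a b a.isLt b.isLt (fun h => hab (Fin.ext h)) with h | h
          · exact (hfar a b hab h).le
          · exact (hnear a b hab h).le
        have hd0 : 0 ≤ dist (pt a) (pt b) := dist_nonneg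
        by_contra hlt
        have h1 : Real.sqrt 32 < dist (pt a) (pt b) := not_le.mp hlt
        nlinarith)
    (by
      intro a b hab hlt
      rcases ent_two_or_six a b a.isLt b.isLt (fun h => hab (Fin.ext h)) with h | h
      · have hd := hfar a b hab h
        have hd0 : 0 ≤ dist (pt a) (pt b) := dist_nonneg
        nlinarith
      · exact h)
    (by
      refine ⟨⟨0, by norm_num⟩, ⟨1, by norm_num⟩, ?_⟩
      have hne : (⟨0, by norm_num⟩ : Fin 321) ≠ ⟨1, by norm_num⟩ := by
        intro h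
        have h1 := congrArg Fin.val h
        simp at h1
      have h2 : ent 0 1 = 2 := by
        rw [ent_block 0 1 (by norm_num) (by norm_num), if_neg (by norm_num), kNon]
        rfl
      have hd := hfar ⟨0, by norm_num⟩ ⟨1, by norm_num⟩ hne h2
      have hd0 : 0 ≤ dist (pt ⟨0, by norm_num⟩) (pt ⟨1, by norm_num⟩) := dist_nonneg
      nlinarith)
    (fun T hT => clique_le_five T hT)
    (by
      rw [Fintype.card_fin]
      norm_num)
  refine ⟨Set.range pt, Set.finite_range pt, ?_, ?_⟩
  · rw [hcore.1]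
    exact h32
  · exact hcore.2

end Vale.Agent.Lib.P052.H21
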